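import Vale.Agent.P219.Full.Geo.Jacobi

/-!
P219: comparison for sectional curvature at most `-e ≤ 0` in the language of `Geo`: expansion of
the exponential map and the Hessian of `(cosh (√e r) - 1) / e`.

With `D = r²` and `V = r ∇r` the gradient of that function is `sinhq (e D) • V`, where
`sinhq s = sinh √s / √s` has derivative `(coshq s - sinhq s) / (2 s)` for `s > 0`.
-/

namespace Vale.Agent.P219.Full

open Filter Set Topology MeasureTheory Vale.Agent.P219.CH
open scoped ContDiff

noncomputable section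

variable {n : ℕ} {G : Coeff n}

/-- The flow of a `Geo` is a flow of the geodesic field. -/
theorem geo_isFlow (Γ : Geo G) : IsFlow G Γ.flow := by
  refine ⟨Γ.flow_c1, Γ.flow_zero, fun p t => ?_⟩
  obtain ⟨hg, hd⟩ := Γ.flow_geodesic p
  have h1 := (hg t).1
  have h2 := (hg t).2
  have e : deriv (fun t => (Γ.flow t p).1) = fun t => (Γ.flow t p).2 := funext hd
  rw [e] at h1 h2
  exact h1.prodMk h2

theorem hasDerivAt_sinhq {s : ℝ} (hs : 0 < s) :
    HasDerivAt sinhq ((coshq s - sinhq s) / (2 * s)) s := by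
  have hb := Real.sqrt_pos.2 hs
  have h : HasDerivAt (fun r => Real.sinh (Real.sqrt r) / Real.sqrt r) _ s :=
    ((Real.hasDerivAt_sqrt hs.ne').sinh).div (Real.hasDerivAt_sqrt hs.ne') hb.ne'
  refine (h.congr_deriv ?_).congr_of_eventuallyEq ?_
  · simp only [coshq, sinhq, snb, if_neg hb.ne', mul_one]
    rw [Real.sq_sqrt hs.le]
    field_simp
  · filter_upwards [eventually_gt_nhds hs] with r hr
    simp [sinhq, snb, (Real.sqrt_pos.2 hr).ne']

variable {e : ℝ}

/-- The comparisons along the geodesic from `x` to `y`: the length of `V`, the Gauss lemma, the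
expansion and the Hessian of half the squared distance. -/
theorem geo_compare (hCH : IsCH G) (Γ : Geo G) (he : 0 ≤ e)
    (hsec : ∀ x u v, G x (curv G x u v v) u ≤ -e * (G x u u * G x v v - G x u v ^ 2))
    (x y w : E n) :
    let D := G x (Γ.logm x y) (Γ.logm x y)
    let p := G y (Γ.V x y) w
    let u := fderiv ℝ (Γ.logm x) y w
    G y (Γ.V x y) (Γ.V x y) = D ∧ G x (Γ.logm x y) u = p ∧
      (D * G x u u - p ^ 2) * sinhq (e * D) ^ 2 ≤ D * G y w w - p ^ 2 ∧
      coshq (e * D) * (D * G y w w - p ^ 2) ≤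
        sinhq (e * D) * (D * G y (covd G (Γ.V x) y w) w - p ^ 2) := by
  intro D p u
  have hF := geo_isFlow Γ
  have hlx : ContDiff ℝ 1 (Γ.logm x) := Γ.logm_c1.comp (contDiff_const.prodMk contDiff_id)
  set v := Γ.logm x y
  obtain ⟨k1, k2, k3, k4⟩ := jacobi_curv hCH hF he hsec x v u
  have hd : HasFDerivAt (fun z => Γ.flow 1 (x, z)) (fderiv ℝ (fun z => Γ.flow 1 (x, z)) v) v :=
    (HasFDerivAt.comp (g := Γ.flow 1) v (hF.hasFDerivAt_time 1 (x, v))
      (hasFDerivAt_prodMk_right x v)).differentiableAt.hasFDerivAt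
  have hl := (hlx.differentiable one_ne_zero y).hasFDerivAt
  have h1 : (fderiv ℝ (Γ.flow 1) (x, v) (0, u)).1 = w := by
    have hc := hd.fst.comp y hl
    rw [show (fun z => (Γ.flow 1 (x, z)).1) ∘ Γ.logm x = id from
      funext fun z => Γ.exp_logm x z] at hc
    have := hc.unique (hasFDerivAt_id y)
    rw [← fderiv_flow_vertical hF x v u]
    exact congrArg (fun L : E n →L[ℝ] E n => L w) this
  have h2 : (fderiv ℝ (Γ.flow 1) (x, v) (0, u)).2 = fderiv ℝ (Γ.V x) y w := by
    have hc := hd.snd.comp y hl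
    rw [show (fun z => (Γ.flow 1 (x, z)).2) ∘ Γ.logm x = Γ.V x from rfl] at hc
    rw [hc.fderiv, ← fderiv_flow_vertical hF x v u]
    rfl
  have hq1 : (Γ.flow 1 (x, v)).1 = y := Γ.exp_logm x y
  have hq2 : (Γ.flow 1 (x, v)).2 = Γ.V x y := rfl
  simp only [h1, h2, hq1, hq2] at k1 k2 k3 k4
  refine ⟨k1, k2.symm, ?_, ?_⟩
  · simp only [p, k2]
    exact k3
  · simp only [p, k2, covd]
    exact k4

/-- The Hessian of `(cosh (√e r) - 1) / e` away from the base point:
`sinhq • Hess (r²/2) + sinhq' ⊗ V ≥ coshq • G`. -/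
theorem geo_hess (hCH : IsCH G) (Γ : Geo G) (he : 0 ≤ e)
    (hsec : ∀ x u v, G x (curv G x u v v) u ≤ -e * (G x u u * G x v v - G x u v ^ 2))
    (x y w : E n) :
    let D := G x (Γ.logm x y) (Γ.logm x y)
    coshq (e * D) * G y w w ≤ sinhq (e * D) * G y (covd G (Γ.V x) y w) w +
      (coshq (e * D) - sinhq (e * D)) * (G y (Γ.V x y) w ^ 2 / D) := by
  intro D
  obtain ⟨hV, -, -, h⟩ := geo_compare hCH Γ he hsec x y w
  rcases (hCH.metric.nonneg x (Γ.logm x y)).eq_or_lt with h0 | h0
  · simp only [D, ← h0, mul_zero, sinhq_zero, coshq, Real.sqrt_zero, Real.cosh_zero, one_mul,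
      div_zero, sub_self, add_zero]
    exact Γ.hess x y w
  · set A := G y (Γ.V x y) w ^ 2
    refine le_of_mul_le_mul_left ?_ h0
    have e1 : D * (sinhq (e * D) * G y (covd G (Γ.V x) y w) w +
        (coshq (e * D) - sinhq (e * D)) * (A / D)) =
        sinhq (e * D) * (D * G y (covd G (Γ.V x) y w) w) +
          (coshq (e * D) - sinhq (e * D)) * A := by
      have : D ≠ 0 := h0.ne'
      field_simp
    change D * _ ≤ D * _
    rw [e1]
    linarith

/-- The inverse exponential map shrinks vectors, orthogonally to the geodesic by `1 / sinhq`. -/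
theorem geo_log_le (hCH : IsCH G) (Γ : Geo G) (he : 0 ≤ e)
    (hsec : ∀ x u v, G x (curv G x u v v) u ≤ -e * (G x u u * G x v v - G x u v ^ 2))
    (x y w : E n) :
    let D := G x (Γ.logm x y) (Γ.logm x y)
    let u := fderiv ℝ (Γ.logm x) y w
    let p := G x (Γ.logm x y) u
    0 < D → p ^ 2 / D + sinhq (e * D) ^ 2 * (G x u u - p ^ 2 / D) ≤ G y w w := by
  intro D u p hD
  obtain ⟨-, hp, h, -⟩ := geo_compare hCH Γ he hsec x y w
  rw [← hp] at h
  refine le_of_mul_le_mul_left ?_ hD
  have : D ≠ 0 := hD.ne'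
  calc D * (p ^ 2 / D + sinhq (e * D) ^ 2 * (G x u u - p ^ 2 / D))
      = p ^ 2 + (D * G x u u - p ^ 2) * sinhq (e * D) ^ 2 := by field_simp
    _ ≤ D * G y w w := by linarith

/-- The inverse exponential map does not increase lengths (also at the base point). -/
theorem geo_log_contract (hCH : IsCH G) (Γ : Geo G) (x y w : E n) :
    G x (fderiv ℝ (Γ.logm x) y w) (fderiv ℝ (Γ.logm x) y w) ≤ G y w w := by
  have hlx : ContDiff ℝ 1 (Γ.logm x) := Γ.logm_c1.comp (contDiff_const.prodMk contDiff_id)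
  have hF := geo_isFlow Γ
  have h := (hF.jacobiFacts hCH).expand x (Γ.logm x y) (fderiv ℝ (Γ.logm x) y w)
  have hc := ((contDiff_expAt Γ.flow_c1 x).differentiable one_ne_zero (Γ.logm x y)).hasFDerivAt.comp
    y (hlx.differentiable one_ne_zero y).hasFDerivAt
  rw [show expAt Γ.flow x ∘ Γ.logm x = id from funext fun z => Γ.exp_logm x z] at hc
  have hu := congrArg (fun L : E n →L[ℝ] E n => L w) (hc.unique (hasFDerivAt_id y))
  simp only [ContinuousLinearMap.comp_apply, ContinuousLinearMap.id_apply] at hu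
  rw [hu] at h
  simpa [expAt, Γ.exp_logm] using h

end

end Vale.Agent.P219.Full
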