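import Mathlib

/-!
P219: the scalar comparison for Jacobi fields vanishing at time zero when the curvature is at
most `-κ ≤ 0`. Here `g = |J|²`, `f = G(DJ, J)`, `m = |DJ|²` for the part of `J` orthogonal to the
geodesic, and `sn`, `cs` solve `sn' = cs`, `cs' = κ sn` with `sn 0 = 0`, `cs 0 = 1`.
-/

namespace Vale.Agent.P219.Full

open Filter Set
open scoped Topology

/-- The comparison function `sinh (b t) / b`, equal to `t` for `b = 0`. -/
noncomputable def snb (b t : ℝ) : ℝ := if b = 0 then t else Real.sinh (b * t) / b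

/-- `sinh √s / √s`, continued by `1` at zero. -/
noncomputable def sinhq (s : ℝ) : ℝ := snb (Real.sqrt s) 1

/-- `cosh √s`. -/
noncomputable def coshq (s : ℝ) : ℝ := Real.cosh (Real.sqrt s)

theorem snb_zero (b : ℝ) : snb b 0 = 0 := by
  simp [snb]

theorem snb_pos {b : ℝ} (hb : 0 ≤ b) {t : ℝ} (ht : 0 < t) : 0 < snb b t := by
  unfold snb
  split_ifs with h
  · exact ht
  · have hb' : 0 < b := lt_of_le_of_ne hb (Ne.symm h)
    exact div_pos (Real.sinh_pos_iff.2 (mul_pos hb' ht)) hb'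

theorem hasDerivAt_snb (b t : ℝ) : HasDerivAt (snb b) (Real.cosh (b * t)) t := by
  rcases eq_or_ne b 0 with rfl | hb
  · have : snb (0 : ℝ) = id := funext fun s => by simp [snb]
    simpa [this] using hasDerivAt_id t
  · have h := (((hasDerivAt_id t).const_mul b).sinh).div_const b
    have e : snb b = fun s => Real.sinh (b * id s) / b := funext fun s => by simp [snb, hb]
    rw [e]
    refine h.congr_deriv ?_
    simp only [id]
    field_simp

theorem hasDerivAt_cosh_snb (b t : ℝ) :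
    HasDerivAt (fun s => Real.cosh (b * s)) (b ^ 2 * snb b t) t := by
  have h := ((hasDerivAt_id t).const_mul b).cosh
  simp only [id] at h
  refine h.congr_deriv ?_
  rcases eq_or_ne b 0 with rfl | hb
  · simp
  · simp only [snb, if_neg hb]
    field_simp

theorem sinhq_pos (s : ℝ) : 0 < sinhq s := snb_pos (Real.sqrt_nonneg s) one_pos

theorem one_le_coshq (s : ℝ) : 1 ≤ coshq s := Real.one_le_cosh _

theorem sinhq_zero : sinhq 0 = 1 := by simp [sinhq, snb]

theorem sinhq_le_coshq (s : ℝ) : sinhq s ≤ coshq s := by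
  set b := Real.sqrt s
  have hm : MonotoneOn (fun t => t * Real.cosh (b * t) - snb b t) (Ici 0) := by
    refine monotoneOn_of_hasDerivWithinAt_nonneg (f' := fun t => t * (b ^ 2 * snb b t))
      (convex_Ici 0) (fun t _ => ?_) (fun t _ => ?_) fun t ht => ?_
    · exact (((hasDerivAt_id t).mul (hasDerivAt_cosh_snb b t)).sub
        (hasDerivAt_snb b t)).continuousAt.continuousWithinAt
    · refine ((((hasDerivAt_id t).mul (hasDerivAt_cosh_snb b t)).sub
        (hasDerivAt_snb b t)).congr_deriv ?_).hasDerivWithinAt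
      simp [id]
    · rw [interior_Ici] at ht
      exact mul_nonneg (le_of_lt ht) (mul_nonneg (sq_nonneg b)
        (snb_pos (Real.sqrt_nonneg s) ht).le)
  have h := hm (mem_Ici.2 le_rfl) (mem_Ici.2 zero_le_one) zero_le_one
  simp only [zero_mul, snb_zero, sub_zero, one_mul, mul_one] at h
  change snb b 1 ≤ Real.cosh b
  linarith

theorem one_le_sinhq (s : ℝ) : 1 ≤ sinhq s := by
  set b := Real.sqrt s
  have hm : MonotoneOn (fun t => snb b t - t) (Ici 0) := by
    refine monotoneOn_of_hasDerivWithinAt_nonneg (f' := fun t => Real.cosh (b * t) - 1)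
      (convex_Ici 0) (fun t _ => ?_) (fun t _ => ?_) fun t _ => ?_
    · exact ((hasDerivAt_snb b t).sub (hasDerivAt_id t)).continuousAt.continuousWithinAt
    · exact ((hasDerivAt_snb b t).sub (hasDerivAt_id t)).hasDerivWithinAt
    · linarith [Real.one_le_cosh (b * t)]
  have h := hm (mem_Ici.2 le_rfl) (mem_Ici.2 zero_le_one) zero_le_one
  simp only [snb_zero, sub_zero] at h
  change 1 ≤ snb b 1
  linarith

theorem jacobi_scalar_strict {f g f' m sn cs : ℝ → ℝ} {c κ : ℝ}
    (hsn : ∀ t, HasDerivAt sn (cs t) t) (hcsd : ∀ t, HasDerivAt cs (κ * sn t) t)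
    (hsn0 : sn 0 = 0) (hcs0 : cs 0 = 1) (hsp : ∀ t, 0 < t → 0 < sn t) (hκ : 0 ≤ κ)
    (hg : ∀ t, HasDerivAt g (2 * f t) t) (hf : ∀ t, HasDerivAt f (f' t) t)
    (hg0 : ∀ t, 0 ≤ g t) (hm0 : ∀ t, 0 ≤ m t) (hm : ∀ t, m t + κ * g t ≤ f' t)
    (hcs : ∀ t, f t ^ 2 ≤ g t * m t) (f0 : f 0 = 0) (hc : 0 < c)
    (hlg : Tendsto (fun t => g t / t ^ 2) (𝓝[>] 0) (𝓝 c))
    (hlf : Tendsto (fun t => f t / t) (𝓝[>] 0) (𝓝 c)) :
    c * sn 1 ^ 2 ≤ g 1 ∧ cs 1 * g 1 ≤ sn 1 * f 1 := by
  have hfm : Monotone f := monotone_of_deriv_nonneg (fun t => (hf t).differentiableAt)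
    fun t => by rw [(hf t).deriv]; nlinarith [hm t, hm0 t, mul_nonneg hκ (hg0 t)]
  have hgm : MonotoneOn g (Ici 0) := by
    refine monotoneOn_of_hasDerivWithinAt_nonneg (convex_Ici 0)
      (fun t _ => (hg t).continuousAt.continuousWithinAt) (fun t _ => (hg t).hasDerivWithinAt)
      fun t ht => ?_
    rw [interior_Ici] at ht
    have := hfm (le_of_lt ht)
    linarith
  have gpos : ∀ t, 0 < t → 0 < g t := by
    intro t ht
    obtain ⟨s, hs, hs1, hs0⟩ := ((hlg.eventually (eventually_gt_nhds hc)).and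
      ((Ioo_mem_nhdsGT ht : ∀ᶠ s in 𝓝[>] (0 : ℝ), s ∈ Ioo 0 t))).exists
    have : 0 < g s := by
      rcases div_pos_iff.1 hs with h | h
      · exact h.1
      · exact absurd h.2 (not_lt.2 (sq_nonneg s))
    exact this.trans_le (hgm (mem_Ici.2 hs1.le) (mem_Ici.2 ht.le) hs0.le)
  set M : ℝ → ℝ := fun t => (sn t * f t - cs t * g t) / Real.sqrt (g t) with hM
  have hMd : ∀ t, 0 < t → ∃ d, 0 ≤ d ∧ HasDerivAt M d t := by
    intro t ht
    have hgt := gpos t ht
    have hs := Real.sqrt_pos.2 hgt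
    refine ⟨_, ?_, (((hsn t).mul (hf t)).sub ((hcsd t).mul (hg t))).div
      ((hg t).sqrt hgt.ne') hs.ne'⟩
    simp only [Pi.sub_apply, Pi.mul_apply]
    refine div_nonneg ?_ (sq_nonneg _)
    have e : (cs t * f t + sn t * f' t - (κ * sn t * g t + cs t * (2 * f t))) * Real.sqrt (g t) -
        (sn t * f t - cs t * g t) * (2 * f t / (2 * Real.sqrt (g t))) =
        sn t * ((f' t - κ * g t) * g t - f t ^ 2) / Real.sqrt (g t) := by
      field_simp
      rw [Real.sq_sqrt hgt.le]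
      ring
    rw [e]
    refine div_nonneg (mul_nonneg (hsp t ht).le ?_) hs.le
    nlinarith [hcs t, mul_le_mul_of_nonneg_left
      (show m t ≤ f' t - κ * g t by linarith [hm t]) hgt.le]
  have hMm : MonotoneOn M (Ioi 0) := by
    refine monotoneOn_of_deriv_nonneg (convex_Ioi 0) (fun t ht => ?_) (fun t ht => ?_) fun t ht => ?_
    · obtain ⟨d, -, h⟩ := hMd t ht
      exact h.continuousAt.continuousWithinAt
    · rw [interior_Ioi] at ht
      obtain ⟨d, -, h⟩ := hMd t ht
      exact h.differentiableAt.differentiableWithinAt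
    · rw [interior_Ioi] at ht
      obtain ⟨d, hd, h⟩ := hMd t ht
      rwa [h.deriv]
  have hsnt : Tendsto (fun t => sn t / t) (𝓝[>] 0) (𝓝 1) := by
    have h1 := ((hsn 0).tendsto_slope_zero).mono_left
      (nhdsWithin_mono (0 : ℝ) (s := Ioi (0 : ℝ)) fun t ht => (mem_Ioi.1 ht).ne')
    simpa [hsn0, hcs0, div_eq_inv_mul] using h1
  have hcst : Tendsto cs (𝓝[>] 0) (𝓝 1) :=
    hcs0 ▸ ((hcsd 0).continuousAt.tendsto.mono_left nhdsWithin_le_nhds)
  have hMlim : Tendsto M (𝓝[>] 0) (𝓝 0) := by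
    have hsc : 0 < Real.sqrt c := Real.sqrt_pos.2 hc
    have hid : Tendsto (fun t : ℝ => t) (𝓝[>] (0 : ℝ)) (𝓝 0) :=
      tendsto_id.mono_left nhdsWithin_le_nhds
    have h1 := (hid.mul ((hsnt.mul hlf).sub (hcst.mul hlg))).div
      ((Real.continuous_sqrt.tendsto c).comp hlg) hsc.ne'
    rw [one_mul, sub_self, mul_zero, zero_div] at h1
    refine h1.congr' ?_
    filter_upwards [self_mem_nhdsWithin] with t (ht : 0 < t)
    have hgt := gpos t ht
    have hs := Real.sqrt_pos.2 hgt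
    simp only [M, Function.comp_apply, Pi.div_apply]
    rw [Real.sqrt_div hgt.le, Real.sqrt_sq ht.le]
    field_simp
  have hMnn : ∀ t, 0 < t → 0 ≤ sn t * f t - cs t * g t := by
    intro t ht
    have h : 0 ≤ M t := le_of_tendsto hMlim
      (mem_of_superset (Ioo_mem_nhdsGT ht) fun s hs => hMm hs.1 ht hs.2.le)
    rcases div_nonneg_iff.1 h with h' | h'
    · exact h'.1
    · exact absurd h'.2 (not_le.2 (Real.sqrt_pos.2 (gpos t ht)))
  set k : ℝ → ℝ := fun t => g t / sn t ^ 2 with hk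
  have hkd : ∀ t, 0 < t → HasDerivAt k (2 * (sn t * f t - cs t * g t) / sn t ^ 3) t := by
    intro t ht
    have hst := (hsp t ht).ne'
    refine ((hg t).div ((hsn t).pow 2) (pow_ne_zero 2 hst)).congr_deriv ?_
    simp only [Pi.pow_apply]
    field_simp
    ring
  have hkm : MonotoneOn k (Ioi 0) := by
    refine monotoneOn_of_hasDerivWithinAt_nonneg (convex_Ioi 0)
      (fun t ht => (hkd t ht).continuousAt.continuousWithinAt)
      (fun t ht => (hkd t (by rwa [interior_Ioi] at ht)).hasDerivWithinAt) fun t ht => ?_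
    rw [interior_Ioi] at ht
    exact div_nonneg (mul_nonneg two_pos.le (hMnn t ht)) (pow_nonneg (hsp t ht).le 3)
  refine ⟨?_, ?_⟩
  · have hlim : Tendsto k (𝓝[>] 0) (𝓝 c) := by
      have h1 := hlg.div (hsnt.pow 2) (by norm_num)
      rw [one_pow, div_one] at h1
      refine h1.congr' ?_
      filter_upwards [self_mem_nhdsWithin] with t (ht : 0 < t)
      have hst := (hsp t ht).ne'
      simp only [k, Pi.div_apply]
      field_simp
    have h : c ≤ k 1 := le_of_tendsto hlim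
      (mem_of_superset (Ioo_mem_nhdsGT one_pos) fun s hs => hkm hs.1 (mem_Ioi.2 one_pos) hs.2.le)
    exact (le_div_iff₀ (pow_pos (hsp 1 one_pos) 2)).1 h
  · linarith [hMnn 1 one_pos]

/-- The comparison without positivity of `c`. -/
theorem jacobi_scalar_sn {f g f' m : ℝ → ℝ} {c b : ℝ} (hb : 0 ≤ b)
    (hg : ∀ t, HasDerivAt g (2 * f t) t) (hf : ∀ t, HasDerivAt f (f' t) t)
    (hg0 : ∀ t, 0 ≤ g t) (hm0 : ∀ t, 0 ≤ m t) (hm : ∀ t, m t + b ^ 2 * g t ≤ f' t)
    (hcs : ∀ t, f t ^ 2 ≤ g t * m t) (f0 : f 0 = 0) (hc : 0 ≤ c)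
    (hlg : Tendsto (fun t => g t / t ^ 2) (𝓝[>] 0) (𝓝 c))
    (hlf : Tendsto (fun t => f t / t) (𝓝[>] 0) (𝓝 c)) :
    c * snb b 1 ^ 2 ≤ g 1 ∧ Real.cosh b * g 1 ≤ snb b 1 * f 1 := by
  set S := snb b
  set C : ℝ → ℝ := fun t => Real.cosh (b * t)
  have hS : ∀ t, HasDerivAt S (C t) t := hasDerivAt_snb b
  have hC : ∀ t, HasDerivAt C (b ^ 2 * S t) t := hasDerivAt_cosh_snb b
  have hsnt : Tendsto (fun t => S t / t) (𝓝[>] 0) (𝓝 1) := by
    have h1 := ((hS 0).tendsto_slope_zero).mono_left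
      (nhdsWithin_mono (0 : ℝ) (s := Ioi (0 : ℝ)) fun t ht => (mem_Ioi.1 ht).ne')
    simpa [S, C, snb_zero, div_eq_inv_mul] using h1
  have hcst : Tendsto C (𝓝[>] 0) (𝓝 1) := by
    simpa [C] using ((hC 0).continuousAt.tendsto.mono_left
      (nhdsWithin_le_nhds (s := Ioi (0 : ℝ))))
  have key := jacobi_scalar_strict (sn := S) (cs := C) (κ := b ^ 2)
    (f := fun t => f t + S t * C t) (g := fun t => g t + S t ^ 2)
    (f' := fun t => f' t + (C t * C t + S t * (b ^ 2 * S t))) (m := fun t => m t + C t ^ 2)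
    (c := c + 1) hS hC (snb_zero b) (by simp [C]) (fun t ht => snb_pos hb ht) (sq_nonneg b)
    (fun t => ((hg t).add ((hS t).pow 2)).congr_deriv (by ring))
    (fun t => (hf t).add ((hS t).mul (hC t)))
    (fun t => add_nonneg (hg0 t) (sq_nonneg _)) (fun t => add_nonneg (hm0 t) (sq_nonneg _))
    (fun t => by linarith [hm t]) (fun t => ?_) (by simp [f0, S, snb_zero]) (by linarith)
    ?_ ?_
  · obtain ⟨k1, k2⟩ := key
    have hC1 : C 1 = Real.cosh b := by simp [C]
    rw [hC1] at k2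
    exact ⟨by linarith, by linarith⟩
  · have h1 : |f t| ≤ Real.sqrt (g t) * Real.sqrt (m t) := by
      rw [← Real.sqrt_mul (hg0 t)]
      exact Real.abs_le_sqrt (hcs t)
    have h2 : f t * (S t * C t) ≤ Real.sqrt (g t) * Real.sqrt (m t) * (|S t| * |C t|) := by
      refine (le_abs_self _).trans ?_
      rw [abs_mul, abs_mul]
      exact mul_le_mul_of_nonneg_right h1 (by positivity)
    nlinarith [hcs t, sq_nonneg (Real.sqrt (g t) * |C t| - Real.sqrt (m t) * |S t|),
      Real.sq_sqrt (hg0 t), Real.sq_sqrt (hm0 t), sq_abs (S t), sq_abs (C t)]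
  · have h1 := hlg.add (hsnt.pow 2)
    rw [one_pow] at h1
    refine h1.congr fun t => ?_
    rw [div_pow, add_div]
  · have h1 := hlf.add (hsnt.mul hcst)
    rw [one_mul] at h1
    refine h1.congr fun t => ?_
    ring

end Vale.Agent.P219.Full
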