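import Vale.Agent.P219.CH.Geo.Hadamard
import Vale.Agent.P219.Full.Geo.Scalar

/-!
P219: Jacobi fields when the sectional curvature is at most `-e ≤ 0`: the expansion of the
exponential map orthogonally to the geodesic and the estimate behind the Hessian comparison.
-/

namespace Vale.Agent.P219.Full

open Filter Set Topology MeasureTheory Vale.Agent.P219.CH
open scoped ContDiff

noncomputable section

variable {n : ℕ} {G : Coeff n} {φ : ℝ → E n × E n → E n × E n}

/-- Cauchy's inequality for the Gram form orthogonal to `V`. -/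
theorem gram_sq_le (hG : IsMetric G) (x V u w : E n) :
    0 ≤ G x V V * G x u u - G x V u ^ 2 ∧
      (G x V V * G x u w - G x V u * G x V w) ^ 2 ≤
        (G x V V * G x u u - G x V u ^ 2) * (G x V V * G x w w - G x V w ^ 2) := by
  refine ⟨by linarith [sq_le_of_isMetric hG x V u, mul_comm (G x V V) (G x u u)], ?_⟩
  rcases eq_or_ne V 0 with rfl | hV
  · simp
  have hD := hG.pos x V hV
  have h := sq_le_of_isMetric hG x (G x V V • u - G x V u • V) (G x V V • w - G x V w • V)
  have e : ∀ a b : E n, G x (G x V V • a - G x V a • V) (G x V V • b - G x V b • V) =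
      G x V V * (G x V V * G x a b - G x V a * G x V b) := by
    intro a b
    simp only [map_sub, map_smul, sub_apply, smul_apply, smul_eq_mul, hG.symm x a V]
    ring
  rw [e, e, e] at h
  have h2 : G x V V ^ 2 * (G x V V * G x u w - G x V u * G x V w) ^ 2 ≤
      G x V V ^ 2 * ((G x V V * G x u u - G x V u ^ 2) * (G x V V * G x w w - G x V w ^ 2)) := by
    linear_combination h
  exact le_of_mul_le_mul_left h2 (pow_pos hD 2)

/-- The estimates along one geodesic, for the derivative of the flow in a vertical direction. -/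
theorem jacobi_curv (hCH : IsCH G) (h : IsFlow G φ) {e : ℝ} (he : 0 ≤ e)
    (hsec : ∀ x u v, G x (curv G x u v v) u ≤ -e * (G x u u * G x v v - G x u v ^ 2))
    (x v a : E n) :
    let y := fderiv ℝ (φ 1) (x, v) (0, a)
    let q := φ 1 (x, v)
    G q.1 q.2 q.2 = G x v v ∧ G q.1 q.2 y.1 = G x v a ∧
      (G x v v * G x a a - G x v a ^ 2) * sinhq (e * G x v v) ^ 2 ≤
        G x v v * G q.1 y.1 y.1 - G x v a ^ 2 ∧
      coshq (e * G x v v) * (G x v v * G q.1 y.1 y.1 - G x v a ^ 2) ≤
        sinhq (e * G x v v) *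
          (G x v v * G q.1 (y.2 + chr G q.1 y.1 q.2) y.1 - G x v a ^ 2) := by
  have hG := hCH.metric
  intro y q
  set γ : ℝ → E n := fun t => (φ t (x, v)).1 with hγd
  set V : ℝ → E n := fun t => (φ t (x, v)).2 with hVd
  set J : ℝ → E n := fun t => (fderiv ℝ (φ t) (x, v) (0, a)).1 with hJd
  set K : ℝ → E n := fun t => (fderiv ℝ (φ t) (x, v) (0, a)).2 with hKd
  have hγ : ∀ t, HasDerivAt γ (V t) t := fun t => hasDerivAt_fst (h.ode (x, v) t)
  have hV : ∀ t, HasDerivAt V (-chr G (γ t) (V t) (V t)) t := fun t => by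
    simpa [geoField, chrL_apply, γ, V] using hasDerivAt_snd (h.ode (x, v) t)
  have hy := fun t => h.hasDerivAt_fderiv hG (x, v) (0, a) t
  have hJ : ∀ t, HasDerivAt J (K t) t := fun t => by
    simpa [fderiv_geoField hG, J, K] using hasDerivAt_fst (hy t)
  have hK : ∀ t, HasDerivAt K (-(fderiv ℝ (chrL G) (γ t) (J t) (V t) (V t) +
      chr G (γ t) (K t) (V t) + chr G (γ t) (V t) (K t))) t := fun t => by
    simpa [fderiv_geoField hG, J, K, γ, V] using hasDerivAt_snd (hy t)
  set W : ℝ → E n := fun t => K t + chrL G (γ t) (V t) (J t) with hWd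
  have hW : ∀ t, ∃ W', HasDerivAt W W' t ∧
      W' + chr G (γ t) (V t) (W t) = -curv G (γ t) (J t) (V t) (V t) := by
    intro t
    have h1 := (hG.contDiff_chrL.differentiable (by norm_num) (γ t)).hasFDerivAt.comp_hasDerivAt t
      (hγ t)
    refine ⟨_, (hK t).add ((h1.clm_apply (hV t)).clm_apply (hJ t)), ?_⟩
    simp only [W, curv, hG.fderiv_chr]
    simp only [Function.comp_apply, add_apply, map_add, map_neg, neg_apply, ← chrL_apply]
    have s1 : ∀ u w, chrL G (γ t) u w = chrL G (γ t) w u := fun u w => by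
      rw [chrL_apply, chrL_apply, hG.chr_symm]
    have s2 : fderiv ℝ (chrL G) (γ t) (V t) (V t) (J t) =
        fderiv ℝ (chrL G) (γ t) (V t) (J t) (V t) := by
      rw [← hG.fderiv_chr, ← hG.fderiv_chr]
      simp only [hG.chr_symm _ (V t) (J t)]
    rw [s1 (K t) (V t), s1 (chrL G (γ t) (V t) (V t)) (J t), s1 (J t) (V t), s2]
    abel
  choose W' hW' hWeq using hW
  have e0 : J 0 = 0 ∧ K 0 = a ∧ γ 0 = x ∧ V 0 = v := by
    simp [J, K, γ, V, h.fderiv_zero, h.zero]
  obtain ⟨hJ0, hK0, hγ0, hV0⟩ := e0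
  have hW0 : W 0 = a := by simp [W, hJ0, hK0, chr_zero_right]
  have hW1 : W 1 = y.2 + chr G q.1 y.1 q.2 := by
    show K 1 + chrL G q.1 q.2 (J 1) = _
    rw [chrL_apply, hG.chr_symm]
  set D := G x v v with hD
  set c := G x v a with hcd
  have hVV : ∀ t, G (γ t) (V t) (V t) = D := fun t => by
    have h1 : ∀ t, HasDerivAt (fun s => G (γ s) (V s) (V s)) 0 t := fun t => by
      refine (hasDerivAt_pair hG (hγ t) (hV t) (hV t)).congr_deriv ?_
      simp
    have hc := is_const_of_deriv_eq_zero (fun t => (h1 t).differentiableAt)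
      (fun t => (h1 t).deriv) t 0
    rwa [hγ0, hV0] at hc
  have hVW : ∀ t, G (γ t) (V t) (W t) = c := fun t => by
    have h2 : ∀ t, HasDerivAt (fun s => G (γ s) (V s) (W s)) 0 t := fun t => by
      refine (hasDerivAt_pair hG (hγ t) (hV t) (hW' t)).congr_deriv ?_
      rw [hWeq]
      simp [hG.symm (γ t) (V t), hG.G_curv_self]
    have hc := is_const_of_deriv_eq_zero (fun t => (h2 t).differentiableAt)
      (fun t => (h2 t).deriv) t 0
    rwa [hγ0, hV0, hW0] at hc
  have hVJ : ∀ t, G (γ t) (V t) (J t) = t * c := fun t => by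
    have h1 : ∀ t, HasDerivAt (fun s => G (γ s) (V s) (J s) - s * c) 0 t := fun t => by
      refine ((hasDerivAt_pair hG (hγ t) (hV t) (hJ t)).sub
        ((hasDerivAt_id t).mul_const c)).congr_deriv ?_
      rw [← hVW t]
      simp [W, chrL_apply]
    have hc := is_const_of_deriv_eq_zero (fun t => (h1 t).differentiableAt)
      (fun t => (h1 t).deriv) t 0
    simp [hγ0, hJ0] at hc
    linarith
  have hb : Real.sqrt (e * D) ^ 2 = e * D := Real.sq_sqrt (mul_nonneg he (hG.nonneg x v))
  have hs := jacobi_scalar_sn (b := Real.sqrt (e * D)) (c := D * G x a a - c ^ 2)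
    (g := fun t => D * G (γ t) (J t) (J t) - (t * c) ^ 2)
    (f := fun t => D * G (γ t) (W t) (J t) - t * c * c)
    (f' := fun t => D * (-G (γ t) (curv G (γ t) (J t) (V t) (V t)) (J t) +
      G (γ t) (W t) (W t)) - c * c)
    (m := fun t => D * G (γ t) (W t) (W t) - c ^ 2)
    (Real.sqrt_nonneg _) ?_ ?_ ?_ ?_ ?_ ?_ (by simp [hJ0])
    (by linarith [sq_le_of_isMetric hG x v a, mul_comm D (G x a a)]) ?_ ?_
  · refine ⟨hVV 1, by simpa using hVJ 1, ?_, ?_⟩
    · simpa [sinhq] using hs.1
    · rw [← hW1]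
      simpa [sinhq, coshq, pow_two] using hs.2
  · intro t
    refine (((hasDerivAt_pair hG (hγ t) (hJ t) (hJ t)).const_mul D).sub
      (((hasDerivAt_id t).mul_const c).pow 2)).congr_deriv ?_
    rw [hG.symm (γ t) (J t)]
    simp [W, chrL_apply]
    ring
  · intro t
    refine (((hasDerivAt_pair hG (hγ t) (hW' t) (hJ t)).const_mul D).sub
      (((hasDerivAt_id t).mul_const c).mul_const c)).congr_deriv ?_
    rw [hWeq]
    simp [W, chrL_apply]
  · intro t
    have := (gram_sq_le hG (γ t) (V t) (J t) (W t)).1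
    rwa [hVV, hVJ] at this
  · intro t
    have := (gram_sq_le hG (γ t) (V t) (W t) (J t)).1
    rwa [hVV, hVW] at this
  · intro t
    have h1 := hsec (γ t) (J t) (V t)
    have hJV : G (γ t) (J t) (V t) = t * c := by rw [hG.symm]; exact hVJ t
    rw [hVV, hJV] at h1
    have h2 := mul_le_mul_of_nonneg_left h1 (hG.nonneg x v)
    rw [hb]
    linarith
  · intro t
    have h2 := (gram_sq_le hG (γ t) (V t) (J t) (W t)).2
    rw [hVV, hVJ, hVW, hG.symm (γ t) (J t) (W t)] at h2
    exact h2
  all_goals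
    have hγt : Tendsto γ (𝓝[>] 0) (𝓝 x) :=
      hγ0 ▸ ((hγ 0).continuousAt.tendsto.mono_left nhdsWithin_le_nhds)
    have hWt : Tendsto W (𝓝[>] 0) (𝓝 a) :=
      hW0 ▸ ((hW' 0).continuousAt.tendsto.mono_left nhdsWithin_le_nhds)
    have hJt : Tendsto (fun t => t⁻¹ • J t) (𝓝[>] 0) (𝓝 a) := by
      have h1 := ((hJ 0).tendsto_slope_zero).mono_left
        (nhdsWithin_mono (0 : ℝ) (s := Ioi (0 : ℝ)) fun t ht => (mem_Ioi.1 ht).ne')
      simpa [hJ0, hK0] using h1
  · refine (((tendsto_pair hG hγt hJt hJt).const_mul D).sub_const (c ^ 2)).congr' ?_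
    filter_upwards [self_mem_nhdsWithin] with t (ht : 0 < t)
    simp only [map_smul, smul_apply, smul_eq_mul]
    field_simp
  · refine (((tendsto_pair hG hγt hWt hJt).const_mul D).sub_const (c ^ 2)).congr' ?_
    filter_upwards [self_mem_nhdsWithin] with t (ht : 0 < t)
    simp only [map_smul, smul_eq_mul]
    field_simp

end

end Vale.Agent.P219.Full
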